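import Vale.Agent.P204.Heart.Alg

/-!
P204 F4: pointwise algebra of two-form coefficients for one matrix `A` with `A² = -1`.
-/

namespace Vale.Agent.P204.Full.Alg

open Matrix

/-- value of a two-form on two vectors -/
def ev2 (w : C2) (u v : C1) : ℝ := ∑ a, ∑ b, u a * v b * w a b

/-- invariant coefficients -/
def Inv (A : Matrix (Fin 4) (Fin 4) ℝ) (w : C2) : Prop := pullC A w = w

/-- anti-invariant coefficients -/
def AInv (A : Matrix (Fin 4) (Fin 4) ℝ) (w : C2) : Prop := pullC A w = -w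

/-- nonnegative on complex lines -/
def Pos (A : Matrix (Fin 4) (Fin 4) ℝ) (w : C2) : Prop := ∀ v : C1, 0 ≤ ev2 w v (A.mulVec v)

variable {A B L : Matrix (Fin 4) (Fin 4) ℝ} {w z : C2}

lemma ev2_eq (w : C2) (u v : C1) : ev2 w u v = u ⬝ᵥ (Matrix.of w *ᵥ v) := by
  simp only [ev2, dotProduct, mulVec, of_apply, Finset.mul_sum]
  exact Finset.sum_congr rfl fun a _ => Finset.sum_congr rfl fun b _ => by ring

lemma pullC_eq (A : Matrix (Fin 4) (Fin 4) ℝ) (w : C2) :
    Matrix.of (pullC A w) = Aᵀ * Matrix.of w * A := by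
  ext a b
  simp only [of_apply, pullC, mul_apply, transpose_apply, Finset.sum_mul]
  rw [Finset.sum_comm]
  exact Finset.sum_congr rfl fun c _ => Finset.sum_congr rfl fun d _ => by ring

lemma pullC_mul (A B : Matrix (Fin 4) (Fin 4) ℝ) (w : C2) :
    pullC (A * B) w = pullC B (pullC A w) := by
  apply Matrix.of.injective
  rw [pullC_eq, pullC_eq, pullC_eq, transpose_mul]
  simp only [Matrix.mul_assoc]

lemma pullC_one (w : C2) : pullC 1 w = w := by
  apply Matrix.of.injective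
  rw [pullC_eq, transpose_one, Matrix.one_mul, Matrix.mul_one]

lemma pullC_neg_one (w : C2) : pullC (-1) w = w := by
  apply Matrix.of.injective
  rw [pullC_eq, transpose_neg, transpose_one, Matrix.neg_mul, Matrix.one_mul, neg_mul_neg,
    Matrix.mul_one]

lemma pullC_add (A : Matrix (Fin 4) (Fin 4) ℝ) (u v : C2) :
    pullC A (u + v) = pullC A u + pullC A v := by
  funext a b
  simp only [pullC, Pi.add_apply, mul_add, Finset.sum_add_distrib]

lemma pullC_smul (A : Matrix (Fin 4) (Fin 4) ℝ) (c : ℝ) (u : C2) :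
    pullC A (c • u) = c • pullC A u := by
  funext a b
  simp only [pullC, Pi.smul_apply, smul_eq_mul, Finset.mul_sum]
  exact Finset.sum_congr rfl fun c _ => Finset.sum_congr rfl fun d _ => by ring

lemma pullC_neg (A : Matrix (Fin 4) (Fin 4) ℝ) (u : C2) : pullC A (-u) = -pullC A u := by
  rw [← neg_one_smul ℝ u, pullC_smul, neg_one_smul]

lemma pullC_sub (A : Matrix (Fin 4) (Fin 4) ℝ) (u v : C2) :
    pullC A (u - v) = pullC A u - pullC A v := by
  rw [sub_eq_add_neg, pullC_add, pullC_neg, ← sub_eq_add_neg]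

lemma anti_pullC (hw : Anti w) (A : Matrix (Fin 4) (Fin 4) ℝ) : Anti (pullC A w) := fun a b => by
  simp only [pullC, ← Finset.sum_neg_distrib]
  rw [Finset.sum_comm]
  exact Finset.sum_congr rfl fun c _ => Finset.sum_congr rfl fun d _ => by rw [hw c d]; ring

lemma p11C_add_pmC (A : Matrix (Fin 4) (Fin 4) ℝ) (w : C2) : p11C A w + pmC A w = w := by
  funext a b; simp only [p11C, pmC, Pi.add_apply]; ring

lemma p11C_eq (A : Matrix (Fin 4) (Fin 4) ℝ) (w : C2) :
    p11C A w = (1 / 2 : ℝ) • (w + pullC A w) := by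
  funext a b; simp only [p11C, Pi.add_apply, Pi.smul_apply, smul_eq_mul]; ring

lemma pmC_eq (A : Matrix (Fin 4) (Fin 4) ℝ) (w : C2) :
    pmC A w = (1 / 2 : ℝ) • (w - pullC A w) := by
  funext a b; simp only [pmC, Pi.sub_apply, Pi.smul_apply, smul_eq_mul]; ring

lemma anti_p11C (hw : Anti w) (A : Matrix (Fin 4) (Fin 4) ℝ) : Anti (p11C A w) := fun a b => by
  simp only [p11C]; rw [hw a b, anti_pullC hw A a b]; ring

lemma anti_pmC (hw : Anti w) (A : Matrix (Fin 4) (Fin 4) ℝ) : Anti (pmC A w) := fun a b => by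
  simp only [pmC]; rw [hw a b, anti_pullC hw A a b]; ring

lemma pullC_pullC (hA : A * A = -1) (w : C2) : pullC A (pullC A w) = w := by
  rw [← pullC_mul, hA, pullC_neg_one]

lemma inv_p11C (hA : A * A = -1) (w : C2) : Inv A (p11C A w) := by
  rw [Inv, p11C_eq, pullC_smul, pullC_add, pullC_pullC hA, add_comm]

lemma ainv_pmC (hA : A * A = -1) (w : C2) : AInv A (pmC A w) := by
  rw [AInv, pmC_eq, pullC_smul, pullC_sub, pullC_pullC hA, ← smul_neg, neg_sub]

lemma p11C_of_inv (h : Inv A w) : p11C A w = w := by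
  rw [p11C_eq, show pullC A w = w from h, ← two_smul ℝ w, smul_smul]; norm_num

lemma pmC_of_inv (h : Inv A w) : pmC A w = 0 := by
  rw [pmC_eq, show pullC A w = w from h, sub_self, smul_zero]

lemma p11C_of_ainv (h : AInv A w) : p11C A w = 0 := by
  rw [p11C_eq, show pullC A w = -w from h, add_neg_cancel, smul_zero]

lemma pmC_of_ainv (h : AInv A w) : pmC A w = w := by
  rw [pmC_eq, show pullC A w = -w from h, sub_neg_eq_add, ← two_smul ℝ w, smul_smul]; norm_num

lemma p11C_add (A : Matrix (Fin 4) (Fin 4) ℝ) (u v : C2) :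
    p11C A (u + v) = p11C A u + p11C A v := by
  rw [p11C_eq, p11C_eq, p11C_eq, pullC_add, ← smul_add]; congr 1; abel

lemma pmC_add (A : Matrix (Fin 4) (Fin 4) ℝ) (u v : C2) :
    pmC A (u + v) = pmC A u + pmC A v := by
  rw [pmC_eq, pmC_eq, pmC_eq, pullC_add, ← smul_add]; congr 1; abel

lemma p11C_smul (A : Matrix (Fin 4) (Fin 4) ℝ) (c : ℝ) (u : C2) :
    p11C A (c • u) = c • p11C A u := by
  rw [p11C_eq, p11C_eq, pullC_smul, ← smul_add, smul_comm]

lemma pmC_smul (A : Matrix (Fin 4) (Fin 4) ℝ) (c : ℝ) (u : C2) :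
    pmC A (c • u) = c • pmC A u := by
  rw [pmC_eq, pmC_eq, pullC_smul, ← smul_sub, smul_comm]

/-! ## Evaluation -/

lemma ev2_pullC (A : Matrix (Fin 4) (Fin 4) ℝ) (w : C2) (u v : C1) :
    ev2 (pullC A w) u v = ev2 w (A *ᵥ u) (A *ᵥ v) := by
  rw [ev2_eq, ev2_eq, pullC_eq, ← mulVec_mulVec, ← mulVec_mulVec, dotProduct_mulVec,
    vecMul_transpose]

lemma ev2_add (w z : C2) (u v : C1) : ev2 (w + z) u v = ev2 w u v + ev2 z u v := by
  simp only [ev2, Pi.add_apply, mul_add, Finset.sum_add_distrib]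

lemma ev2_smul (c : ℝ) (w : C2) (u v : C1) : ev2 (c • w) u v = c * ev2 w u v := by
  simp only [ev2, Pi.smul_apply, smul_eq_mul, Finset.mul_sum]
  exact Finset.sum_congr rfl fun a _ => Finset.sum_congr rfl fun b _ => by ring

lemma ev2_neg (w : C2) (u v : C1) : ev2 (-w) u v = -ev2 w u v := by
  rw [← neg_one_smul ℝ w, ev2_smul, neg_one_mul]

lemma ev2_add_left (w : C2) (u u' v : C1) : ev2 w (u + u') v = ev2 w u v + ev2 w u' v := by
  rw [ev2_eq, ev2_eq, ev2_eq, add_dotProduct]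

lemma ev2_add_right (w : C2) (u v v' : C1) : ev2 w u (v + v') = ev2 w u v + ev2 w u v' := by
  rw [ev2_eq, ev2_eq, ev2_eq, mulVec_add, dotProduct_add]

lemma ev2_smul_left (c : ℝ) (w : C2) (u v : C1) : ev2 w (c • u) v = c * ev2 w u v := by
  rw [ev2_eq, ev2_eq, smul_dotProduct, smul_eq_mul]

lemma ev2_smul_right (c : ℝ) (w : C2) (u v : C1) : ev2 w u (c • v) = c * ev2 w u v := by
  rw [ev2_eq, ev2_eq, mulVec_smul, dotProduct_smul, smul_eq_mul]

lemma ev2_neg_right (w : C2) (u v : C1) : ev2 w u (-v) = -ev2 w u v := by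
  rw [← neg_one_smul ℝ v, ev2_smul_right, neg_one_mul]

lemma ev2_antisymm (hw : Anti w) (u v : C1) : ev2 w v u = -ev2 w u v := by
  simp only [ev2, ← Finset.sum_neg_distrib]
  rw [Finset.sum_comm]
  exact Finset.sum_congr rfl fun a _ => Finset.sum_congr rfl fun b _ => by rw [hw a b]; ring

/-- invariant forms give symmetric forms `(u, v) ↦ w u (A v)` -/
lemma ev2_symm_of_inv (hA : A * A = -1) (hw : Anti w) (h : Inv A w) (u v : C1) :
    ev2 w u (A *ᵥ v) = ev2 w v (A *ᵥ u) := by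
  have e := ev2_pullC A w u (A *ᵥ v)
  rw [show pullC A w = w from h, mulVec_mulVec, hA, neg_mulVec, one_mulVec, ev2_neg_right,
    ev2_antisymm hw v (A *ᵥ u), neg_neg] at e
  exact e

lemma ev2_p11C (hA : A * A = -1) (hw : Anti w) (v : C1) :
    ev2 (p11C A w) v (A *ᵥ v) = ev2 w v (A *ᵥ v) := by
  rw [p11C_eq, ev2_smul, ev2_add, ev2_pullC, mulVec_mulVec, hA, neg_mulVec, one_mulVec,
    ev2_neg_right, ev2_antisymm hw v (A *ᵥ v)]
  ring

lemma ev2_of_ainv (hA : A * A = -1) (hw : Anti w) (h : AInv A w) (v : C1) :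
    ev2 w v (A *ᵥ v) = 0 := by
  have e := ev2_pullC A w v (A *ᵥ v)
  rw [show pullC A w = -w from h, mulVec_mulVec, hA, neg_mulVec, one_mulVec, ev2_neg_right,
    ev2_antisymm hw v (A *ᵥ v), ev2_neg, neg_neg] at e
  linarith

/-! ## Change of coordinates -/

lemma pullC_conj (h : A * L = L * B) (w : C2) :
    pullC B (pullC L w) = pullC L (pullC A w) := by
  rw [← pullC_mul, ← pullC_mul, h]

lemma inv_conj (h : A * L = L * B) (hw : Inv A w) : Inv B (pullC L w) := by
  rw [Inv, pullC_conj h, show pullC A w = w from hw]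

lemma ainv_conj (h : A * L = L * B) (hw : AInv A w) : AInv B (pullC L w) := by
  rw [AInv, pullC_conj h, show pullC A w = -w from hw, pullC_neg]

lemma pos_conj (h : A * L = L * B) (hw : Pos A w) : Pos B (pullC L w) := fun v => by
  rw [ev2_pullC, mulVec_mulVec, ← h, ← mulVec_mulVec]
  exact hw _

lemma p11C_conj (h : A * L = L * B) (w : C2) : p11C B (pullC L w) = pullC L (p11C A w) := by
  rw [p11C_eq, p11C_eq, pullC_conj h, pullC_smul, pullC_add]

lemma pmC_conj (h : A * L = L * B) (w : C2) : pmC B (pullC L w) = pullC L (pmC A w) := by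
  rw [pmC_eq, pmC_eq, pullC_conj h, pullC_smul, pullC_sub]

/-! ## The wedge product -/

lemma wdg_comm (u v : C2) : wdg u v = wdg v u := by simp only [wdg]; ring

lemma wdg_add_left (u u' v : C2) : wdg (u + u') v = wdg u v + wdg u' v := by
  simp only [wdg, Pi.add_apply]; ring

lemma wdg_smul_left (c : ℝ) (u v : C2) : wdg (c • u) v = c * wdg u v := by
  simp only [wdg, Pi.smul_apply, smul_eq_mul]; ring

lemma wdg_neg_left (u v : C2) : wdg (-u) v = -wdg u v := by
  rw [← neg_one_smul ℝ u, wdg_smul_left, neg_one_mul]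

lemma wdg_add_right (u v v' : C2) : wdg u (v + v') = wdg u v + wdg u v' := by
  simp only [wdg, Pi.add_apply]; ring

lemma wdg_smul_right (c : ℝ) (u v : C2) : wdg u (c • v) = c * wdg u v := by
  simp only [wdg, Pi.smul_apply, smul_eq_mul]; ring

lemma wdg_neg_right (u v : C2) : wdg u (-v) = -wdg u v := by
  rw [wdg_comm, wdg_neg_left, wdg_comm]

lemma pullC_six (A : Matrix (Fin 4) (Fin 4) ℝ) (hw : Anti w) (a b : Fin 4) :
    pullC A w a b = (A 0 a * A 1 b - A 1 a * A 0 b) * w 0 1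
      + (A 0 a * A 2 b - A 2 a * A 0 b) * w 0 2 + (A 0 a * A 3 b - A 3 a * A 0 b) * w 0 3
      + (A 1 a * A 2 b - A 2 a * A 1 b) * w 1 2 + (A 1 a * A 3 b - A 3 a * A 1 b) * w 1 3
      + (A 2 a * A 3 b - A 3 a * A 2 b) * w 2 3 := by
  have hd : ∀ i, w i i = 0 := fun i => by linarith [hw i i]
  simp only [pullC, Fin.sum_univ_four, hd, hw 0 1, hw 0 2, hw 0 3, hw 1 2, hw 1 3, hw 2 3]
  ring

lemma det_four (A : Matrix (Fin 4) (Fin 4) ℝ) : A.det =
    (A 0 0 * A 1 1 - A 0 1 * A 1 0) * (A 2 2 * A 3 3 - A 2 3 * A 3 2)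
    - (A 0 0 * A 1 2 - A 0 2 * A 1 0) * (A 2 1 * A 3 3 - A 2 3 * A 3 1)
    + (A 0 0 * A 1 3 - A 0 3 * A 1 0) * (A 2 1 * A 3 2 - A 2 2 * A 3 1)
    + (A 0 1 * A 1 2 - A 0 2 * A 1 1) * (A 2 0 * A 3 3 - A 2 3 * A 3 0)
    - (A 0 1 * A 1 3 - A 0 3 * A 1 1) * (A 2 0 * A 3 2 - A 2 2 * A 3 0)
    + (A 0 2 * A 1 3 - A 0 3 * A 1 2) * (A 2 0 * A 3 1 - A 2 1 * A 3 0) := by
  rw [det_succ_row_zero, Fin.sum_univ_four]
  simp [det_fin_three, Fin.succAbove]
  ring

lemma wdg_pullC (A : Matrix (Fin 4) (Fin 4) ℝ) (hw : Anti w) (hz : Anti z) :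
    wdg (pullC A w) (pullC A z) = A.det * wdg w z := by
  simp only [wdg, pullC_six A hw, pullC_six A hz, det_four]
  ring

end Vale.Agent.P204.Full.Alg
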