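import Vale.Agent.P204.Full.Alg.Basic

/-!
P204 F4: matrices uniformly near the standard complex structure, reduced to it by `frame`.
-/

namespace Vale.Agent.P204.Full.Alg

open Matrix Vale.Agent.P204.Heart

/-- a complex structure matrix within `1/1000` of the standard one -/
def Near (A : Matrix (Fin 4) (Fin 4) ℝ) : Prop :=
  A * A = -1 ∧ ∀ p q, |A p q - J0 p q| ≤ 1 / 1000

variable {A B : Matrix (Fin 4) (Fin 4) ℝ} {w z b h g F : C2}

/-! ## Crude bounds -/

lemma norm_C2_le {r : ℝ} (hr : 0 ≤ r) (hb : ∀ i j, |w i j| ≤ r) : ‖w‖ ≤ r :=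
  (pi_norm_le_iff_of_nonneg hr).2 fun i => (pi_norm_le_iff_of_nonneg hr).2 fun j => by
    rw [Real.norm_eq_abs]; exact hb i j

lemma abs_ev2_le (w : C2) (u v : C1) : |ev2 w u v| ≤ 16 * ‖w‖ * ‖u‖ * ‖v‖ := by
  have hc : ∀ a b, |u a * v b * w a b| ≤ ‖u‖ * ‖v‖ * ‖w‖ := fun a b => by
    rw [abs_mul, abs_mul]
    exact mul_le_mul (mul_le_mul (abs_le_norm_C1 u a) (abs_le_norm_C1 v b) (abs_nonneg _)
      (norm_nonneg _)) (abs_le_norm_C2 w a b) (abs_nonneg _) (by positivity)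
  refine (Finset.abs_sum_le_sum_abs _ _).trans ((Finset.sum_le_sum fun a _ =>
    (Finset.abs_sum_le_sum_abs _ _).trans (Finset.sum_le_sum fun b _ => hc a b)).trans
    (le_of_eq ?_))
  simp [Fin.sum_univ_four]; ring

/-- Lipschitz dependence of the pullback on the matrix -/
lemma norm_pullC_sub_le {r d : ℝ} (hd : 0 ≤ d) (hB : ∀ p q, |B p q| ≤ r)
    (hAB : ∀ p q, |A p q - B p q| ≤ d) (w : C2) :
    ‖pullC A w - pullC B w‖ ≤ 16 * (2 * r * d + d ^ 2) * ‖w‖ := by
  have hr : 0 ≤ r := (abs_nonneg _).trans (hB 0 0)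
  refine norm_C2_le (by positivity) fun a b => ?_
  simp only [Pi.sub_apply, pullC, ← Finset.sum_sub_distrib]
  have hc : ∀ c e, |A c a * A e b * w c e - B c a * B e b * w c e| ≤
      (2 * r * d + d ^ 2) * ‖w‖ := fun c e => by
    rw [← sub_mul, abs_mul]
    refine mul_le_mul ?_ (abs_le_norm_C2 w c e) (abs_nonneg _) (by positivity)
    have e1 : A c a * A e b - B c a * B e b = (A c a - B c a) * (A e b - B e b)
        + (A c a - B c a) * B e b + B c a * (A e b - B e b) := by ring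
    rw [e1]
    refine (abs_add_le _ _).trans ((add_le_add (abs_add_le _ _) le_rfl).trans ?_)
    rw [abs_mul, abs_mul, abs_mul]
    have h1 := mul_le_mul (hAB c a) (hAB e b) (abs_nonneg _) hd
    have h2 := mul_le_mul (hAB c a) (hB e b) (abs_nonneg _) hd
    have h3 := mul_le_mul (hB c a) (hAB e b) (abs_nonneg _) hr
    nlinarith
  refine (Finset.abs_sum_le_sum_abs _ _).trans ((Finset.sum_le_sum fun c _ =>
    (Finset.abs_sum_le_sum_abs _ _).trans (Finset.sum_le_sum fun e _ => hc c e)).trans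
    (le_of_eq ?_))
  simp [Fin.sum_univ_four]; ring

lemma norm_mulVec_le {r : ℝ} (hA : ∀ p q, |A p q| ≤ r) (v : C1) : ‖A *ᵥ v‖ ≤ 4 * r * ‖v‖ := by
  have hr : 0 ≤ r := (abs_nonneg _).trans (hA 0 0)
  refine (pi_norm_le_iff_of_nonneg (by positivity)).2 fun i => ?_
  rw [Real.norm_eq_abs]
  show |∑ j, A i j * v j| ≤ _
  refine (Finset.abs_sum_le_sum_abs _ _).trans ((Finset.sum_le_sum fun j _ => ?_).trans
    (le_of_eq (show ∑ _j : Fin 4, r * ‖v‖ = 4 * r * ‖v‖ by simp; ring)))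
  rw [abs_mul]
  exact mul_le_mul (hA i j) (abs_le_norm_C1 v j) (abs_nonneg _) hr

/-! ## The frame -/

lemma Near.mul_frame (hA : Near A) : A * frame A = frame A * J0 := by
  have e := hA.1
  ext c a
  have e0 : (A * A) c 0 = -(1 : Matrix (Fin 4) (Fin 4) ℝ) c 0 := by rw [e]; rfl
  have e2 : (A * A) c 2 = -(1 : Matrix (Fin 4) (Fin 4) ℝ) c 2 := by rw [e]; rfl
  simp only [mul_apply, Fin.sum_univ_four] at e0 e2
  fin_cases a <;> fin_cases c <;>
    simp [frame, J0, mul_apply, Fin.sum_univ_four, Matrix.one_apply] at e0 e2 ⊢ <;> linarith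

lemma Near.frame_sub_one (hA : Near A) (p q : Fin 4) :
    |frame A p q - (1 : Matrix (Fin 4) (Fin 4) ℝ) p q| ≤ 1 / 1000 := by
  fin_cases p <;> fin_cases q <;> simp [frame, Matrix.one_apply] <;>
    first
      | (norm_num; done)
      | (have h1 := hA.2 0 0; simpa [J0] using h1)
      | (have h1 := hA.2 1 0; simpa [J0] using h1)
      | (have h1 := hA.2 2 0; simpa [J0] using h1)
      | (have h1 := hA.2 3 0; simpa [J0] using h1)
      | (have h1 := hA.2 0 2; simpa [J0] using h1)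
      | (have h1 := hA.2 1 2; simpa [J0] using h1)
      | (have h1 := hA.2 2 2; simpa [J0] using h1)
      | (have h1 := hA.2 3 2; simpa [J0] using h1)

lemma abs_one_le (p q : Fin 4) : |(1 : Matrix (Fin 4) (Fin 4) ℝ) p q| ≤ 1 := by
  rw [Matrix.one_apply]; split <;> simp

lemma Near.norm_pullC_frame_sub (hA : Near A) (w : C2) :
    ‖pullC (frame A) w - w‖ ≤ 1 / 20 * ‖w‖ := by
  have h := norm_pullC_sub_le (r := 1) (by norm_num) abs_one_le hA.frame_sub_one w
  rw [pullC_one] at h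
  exact h.trans (mul_le_mul_of_nonneg_right (by norm_num) (norm_nonneg w))

lemma Near.norm_frame_bounds (hA : Near A) (w : C2) :
    ‖w‖ / 2 ≤ ‖pullC (frame A) w‖ ∧ ‖pullC (frame A) w‖ ≤ 2 * ‖w‖ := by
  have h := hA.norm_pullC_frame_sub w
  have h0 := norm_nonneg w
  refine ⟨?_, ?_⟩
  · have := norm_sub_norm_le w (pullC (frame A) w)
    rw [norm_sub_rev] at this
    linarith
  · have := norm_le_norm_add_norm_sub' (pullC (frame A) w) w
    linarith

lemma Near.frame_injective (hA : Near A) {w z : C2}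
    (h : pullC (frame A) w = pullC (frame A) z) : w = z := by
  have h1 := (hA.norm_frame_bounds (w - z)).1
  rw [pullC_sub, h, sub_self, norm_zero] at h1
  exact sub_eq_zero.1 (norm_le_zero_iff.1 (by linarith))

lemma anti_F0 : Anti F0 := fun a b => by fin_cases a <;> fin_cases b <;> simp [F0]

lemma norm_F0 : ‖F0‖ ≤ 1 :=
  norm_C2_le zero_le_one fun i j => by fin_cases i <;> fin_cases j <;> simp [F0]

lemma Near.det_frame (hA : Near A) : 1 / 2 ≤ (frame A).det ∧ (frame A).det ≤ 2 := by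
  set r := pullC (frame A) F0 - F0 with hr
  have hn : ‖r‖ ≤ 1 / 20 := (hA.norm_pullC_frame_sub F0).trans (by linarith [norm_F0])
  have e := wdg_pullC (frame A) anti_F0 anti_F0
  rw [show pullC (frame A) F0 = F0 + r by rw [hr]; abel, wdg_add_left, wdg_add_right,
    wdg_add_right, wdg_comm r F0] at e
  have hF : wdg F0 F0 = 2 := by simp [wdg, F0]; norm_num
  have h1 : |wdg F0 r| ≤ 1 / 10 := by
    have e2 : wdg F0 r = r 2 3 + r 0 1 := by simp [wdg, F0]
    rw [e2]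
    exact (abs_add_le _ _).trans (by linarith [abs_le_norm_C2 r 2 3, abs_le_norm_C2 r 0 1])
  have h2 : |wdg r r| ≤ 1 / 50 :=
    (wdg_abs_le r r).trans (by nlinarith [norm_nonneg r])
  rw [hF] at e
  simp only [abs_le] at h1 h2
  constructor <;> linarith

lemma det_J0 : J0.det = 1 := by simp [det_four, J0]

lemma Near.det_eq_one (hA : Near A) : A.det = 1 := by
  have e := congrArg Matrix.det hA.mul_frame
  rw [det_mul, det_mul, det_J0, mul_one] at e
  have := hA.det_frame.1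
  exact mul_right_cancel₀ (b := (frame A).det) (by linarith) (e.trans (one_mul _).symm)

/-- wedge products are computed in the frame up to a positive factor -/
lemma Near.wdg_frame (hA : Near A) (hw : Anti w) (hz : Anti z) :
    wdg (pullC (frame A) w) (pullC (frame A) z) = (frame A).det * wdg w z :=
  wdg_pullC _ hw hz

lemma Near.wdg_inv_ainv (hA : Near A) (hw : Anti w) (hz : Anti z) (h : Inv A w)
    (h' : AInv A z) : wdg w z = 0 := by
  have e := wdg_pullC A hw hz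
  rw [show pullC A w = w from h, show pullC A z = -z from h', hA.det_eq_one, one_mul,
    wdg_neg_right] at e
  linarith

lemma Near.wdg_p11_pm (hA : Near A) (hw : Anti w) (hz : Anti z) :
    wdg (p11C A w) (pmC A z) = 0 :=
  hA.wdg_inv_ainv (anti_p11C hw A) (anti_pmC hz A) (inv_p11C hA.1 w) (ainv_pmC hA.1 z)

lemma Near.norm_le_two (hA : Near A) (p q : Fin 4) : |A p q| ≤ 2 := by
  have h := hA.2 p q
  have hJ : |J0 p q| ≤ 1 := by fin_cases p <;> fin_cases q <;> simp [J0]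
  calc |A p q| = |(A p q - J0 p q) + J0 p q| := by ring_nf
    _ ≤ _ := (abs_add_le _ _).trans (by linarith)

lemma Near.norm_frame_mulVec (hA : Near A) (v : C1) :
    ‖v‖ / 2 ≤ ‖frame A *ᵥ v‖ ∧ ‖frame A *ᵥ v‖ ≤ 2 * ‖v‖ := by
  have h := norm_mulVec_le (A := frame A - 1) (r := 1 / 1000)
    (fun p q => by simpa using hA.frame_sub_one p q) v
  rw [sub_mulVec, one_mulVec] at h
  have h0 := norm_nonneg v
  refine ⟨?_, ?_⟩
  · have := norm_sub_norm_le v (frame A *ᵥ v)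
    rw [norm_sub_rev] at this
    linarith
  · have := norm_le_norm_add_norm_sub' (frame A *ᵥ v) v
    linarith

/-! ## The standard structure -/

lemma inv_J0_iff (hb : Anti b) : Inv J0 b ↔ b 0 2 = b 1 3 ∧ b 0 3 = -b 1 2 := by
  have hd : ∀ i, b i i = 0 := fun i => by linarith [hb i i]
  constructor
  · intro h
    have e1 := congrFun (congrFun h 0) 2
    have e2 := congrFun (congrFun h 0) 3
    rw [pullC_six J0 hb] at e1 e2
    simp [J0] at e1 e2
    constructor <;> linarith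
  · rintro ⟨e1, e2⟩
    funext i j
    rw [pullC_six J0 hb]
    fin_cases i <;> fin_cases j <;>
      simp [J0, hd, hb 0 1, hb 0 2, hb 0 3, hb 1 2, hb 1 3, hb 2 3] <;> linarith

lemma ainv_J0_iff (hb : Anti b) : AInv J0 b ↔
    b 0 1 = 0 ∧ b 2 3 = 0 ∧ b 0 2 = -b 1 3 ∧ b 0 3 = b 1 2 := by
  have hd : ∀ i, b i i = 0 := fun i => by linarith [hb i i]
  constructor
  · intro h
    have e0 := congrFun (congrFun h 0) 1
    have e1 := congrFun (congrFun h 0) 2
    have e2 := congrFun (congrFun h 0) 3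
    have e3 := congrFun (congrFun h 2) 3
    rw [pullC_six J0 hb] at e0 e1 e2 e3
    simp [J0] at e0 e1 e2 e3
    refine ⟨?_, ?_, ?_, ?_⟩ <;> linarith
  · rintro ⟨e0, e3, e1, e2⟩
    funext i j
    rw [pullC_six J0 hb]
    fin_cases i <;> fin_cases j <;>
      simp [J0, hd, hb 0 1, hb 0 2, hb 0 3, hb 1 2, hb 1 3, hb 2 3] <;> linarith

lemma ev2_J0 (hb : Anti b) (h1 : b 0 2 = b 1 3) (h2 : b 0 3 = -b 1 2) (v : C1) :
    ev2 b v (J0 *ᵥ v) = b 0 1 * (v 0 ^ 2 + v 1 ^ 2) + b 2 3 * (v 2 ^ 2 + v 3 ^ 2)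
      + 2 * (b 0 2 * (v 2 * v 1 - v 0 * v 3) + b 0 3 * (v 2 * v 0 + v 1 * v 3)) := by
  have hd : ∀ i, b i i = 0 := fun i => by linarith [hb i i]
  have e2 : b 1 2 = -b 0 3 := by linarith
  simp only [ev2, Fin.sum_univ_four, J0_mulVec, hd, hb 0 1, hb 0 2, hb 0 3, hb 1 2, hb 1 3,
    hb 2 3, Matrix.cons_val_zero, Matrix.cons_val_one, Matrix.cons_val_two, Matrix.cons_val_three,
    Matrix.head_cons, Matrix.tail_cons, e2, ← h1]
  ring

lemma semipos_iff_J0 : Semipos b ↔ Anti b ∧ Inv J0 b ∧ Pos J0 b := by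
  constructor
  · rintro ⟨hb, h1, h2, ha, hd, hdet⟩
    refine ⟨hb, (inv_J0_iff hb).2 ⟨h1, h2⟩, fun v => ?_⟩
    rw [ev2_J0 hb h1 h2]
    set r1 := v 0 ^ 2 + v 1 ^ 2
    set r2 := v 2 ^ 2 + v 3 ^ 2
    set X := v 2 * v 1 - v 0 * v 3
    set Y := v 2 * v 0 + v 1 * v 3
    have hXY : X ^ 2 + Y ^ 2 = r1 * r2 := by simp only [X, Y, r1, r2]; ring
    have h0 : 0 ≤ r1 * r2 := by positivity
    have hcs : (b 0 2 * X + b 0 3 * Y) ^ 2 ≤ (b 0 1 * b 2 3) * (r1 * r2) := by
      have h3 : (b 0 2 * X + b 0 3 * Y) ^ 2 ≤ (b 0 2 ^ 2 + b 0 3 ^ 2) * (X ^ 2 + Y ^ 2) := by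
        nlinarith [sq_nonneg (b 0 2 * Y - b 0 3 * X)]
      rw [hXY] at h3
      nlinarith [mul_le_mul_of_nonneg_right hdet h0]
    have hS : 0 ≤ b 0 1 * r1 + b 2 3 * r2 := by positivity
    have h4 : (2 * |b 0 2 * X + b 0 3 * Y|) ^ 2 ≤ (b 0 1 * r1 + b 2 3 * r2) ^ 2 := by
      rw [mul_pow, sq_abs]; nlinarith [sq_nonneg (b 0 1 * r1 - b 2 3 * r2)]
    have h5 := (sq_le_sq₀ (by positivity) hS).1 h4
    linarith [neg_abs_le (b 0 2 * X + b 0 3 * Y)]
  · rintro ⟨hb, hi, hp⟩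
    obtain ⟨h1, h2⟩ := (inv_J0_iff hb).1 hi
    have q : ∀ x y z t : ℝ, 0 ≤ b 0 1 * (x ^ 2 + y ^ 2) + b 2 3 * (z ^ 2 + t ^ 2)
        + 2 * (b 0 2 * (z * y - x * t) + b 0 3 * (z * x + y * t)) := fun x y z t => by
      have h := hp ![x, y, z, t]
      rw [ev2_J0 hb h1 h2] at h
      simpa using h
    have ha : 0 ≤ b 0 1 := by have := q 1 0 0 0; linarith
    have hd : 0 ≤ b 2 3 := by have := q 0 0 1 0; linarith
    refine ⟨hb, h1, h2, ha, hd, ?_⟩
    have hq := q (b 2 3) 0 (-b 0 3) (b 0 2)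
    rcases hd.eq_or_lt with e | e
    · by_contra hn
      rw [← e, mul_zero, not_le] at hn
      set s := b 0 2 ^ 2 + b 0 3 ^ 2
      set t := s / (b 0 1 + 1) with ht
      have hq' := q t 0 (-b 0 3) (b 0 2)
      rw [← e] at hq'
      have ht0 : 0 < t := by positivity
      have e3 : b 0 1 * t + t = s := by rw [ht]; field_simp
      nlinarith
    · nlinarith

lemma semipos_norm_le (hh : Semipos h) : ‖h‖ ≤ tr11 h := by
  obtain ⟨hb, h1, h2, ha, hd, hdet⟩ := hh
  have hz : ∀ i, h i i = 0 := fun i => by linarith [hb i i]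
  have hp : |h 0 2| ≤ tr11 h :=
    abs_le_of_sq_le_sq (by rw [tr11]; nlinarith) (by rw [tr11]; linarith)
  have hq : |h 0 3| ≤ tr11 h :=
    abs_le_of_sq_le_sq (by rw [tr11]; nlinarith) (by rw [tr11]; linarith)
  rw [abs_le] at hp hq
  rw [tr11] at hp hq ⊢
  refine norm_C2_le (by linarith) fun i j => ?_
  rw [abs_le]
  constructor <;> fin_cases i <;> fin_cases j <;>
    simp [hz, hb 0 1, hb 0 2, hb 0 3, hb 1 2, hb 1 3, hb 2 3] <;> linarith

lemma wdg_semipos_nonneg (hh : Semipos h) (hg : Semipos g) : 0 ≤ wdg h g := by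
  obtain ⟨-, h1, h2, ha, hd, hdet⟩ := hh
  obtain ⟨-, g1, g2, ga, gd, gdet⟩ := hg
  have e1 : h 1 2 = -h 0 3 := by linarith
  have e2 : g 1 2 = -g 0 3 := by linarith
  have e : wdg h g = h 0 1 * g 2 3 + h 2 3 * g 0 1 - 2 * (h 0 2 * g 0 2 + h 0 3 * g 0 3) := by
    simp only [wdg, e1, e2, ← h1, ← g1]; ring
  rw [e]
  have hcs : (h 0 2 * g 0 2 + h 0 3 * g 0 3) ^ 2 ≤ (h 0 1 * h 2 3) * (g 0 1 * g 2 3) := by
    have h3 : (h 0 2 * g 0 2 + h 0 3 * g 0 3) ^ 2 ≤
        (h 0 2 ^ 2 + h 0 3 ^ 2) * (g 0 2 ^ 2 + g 0 3 ^ 2) := by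
      nlinarith [sq_nonneg (h 0 2 * g 0 3 - h 0 3 * g 0 2)]
    exact h3.trans (mul_le_mul hdet gdet (by positivity) (by positivity))
  have hS : 0 ≤ h 0 1 * g 2 3 + h 2 3 * g 0 1 := by positivity
  have h4 : (2 * |h 0 2 * g 0 2 + h 0 3 * g 0 3|) ^ 2 ≤
      (h 0 1 * g 2 3 + h 2 3 * g 0 1) ^ 2 := by
    rw [mul_pow, sq_abs]; nlinarith [sq_nonneg (h 0 1 * g 2 3 - h 2 3 * g 0 1)]
  have h5 := (sq_le_sq₀ (by positivity) hS).1 h4
  linarith [le_abs_self (h 0 2 * g 0 2 + h 0 3 * g 0 3)]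

/-! ## Transfer to `A` -/

lemma Near.semipos_iff (hA : Near A) (hw : Anti w) :
    Semipos (pullC (frame A) w) ↔ Inv A w ∧ Pos A w := by
  rw [semipos_iff_J0]
  constructor
  · rintro ⟨-, hi, hp⟩
    refine ⟨hA.frame_injective ?_, fun v => ?_⟩
    · rw [← pullC_conj hA.mul_frame]; exact hi
    · obtain ⟨u, rfl⟩ : ∃ u, frame A *ᵥ u = v := ⟨(frame A)⁻¹ *ᵥ v, by
        rw [mulVec_mulVec, Matrix.mul_nonsing_inv _ (by
          rw [isUnit_iff_ne_zero]; linarith [hA.det_frame.1]), one_mulVec]⟩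
      have h := hp u
      rwa [ev2_pullC, mulVec_mulVec, ← hA.mul_frame, ← mulVec_mulVec] at h
  · rintro ⟨hi, hp⟩
    exact ⟨anti_pullC hw _, inv_conj hA.mul_frame hi, pos_conj hA.mul_frame hp⟩

/-- `w ∧ w` controls anti-invariant forms -/
lemma Near.wdg_pm_ge (hA : Near A) (hw : Anti w) (hi : AInv A w) : ‖w‖ ^ 2 / 4 ≤ wdg w w := by
  have hb := anti_pullC hw (frame A)
  obtain ⟨e0, e3, e1, e2⟩ := (ainv_J0_iff hb).1 (ainv_conj hA.mul_frame hi)
  have e := hA.wdg_frame hw hw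
  have hn := (hA.norm_frame_bounds w).1
  set b := pullC (frame A) w
  set s := b 0 2 ^ 2 + b 0 3 ^ 2
  have hs : wdg b b = 2 * s := by
    simp only [wdg, e0, e3, show b 1 3 = -b 0 2 by linarith, ← e2, s]; ring
  have hz : ∀ i, b i i = 0 := fun i => by linarith [hb i i]
  have hbn : ‖b‖ ≤ Real.sqrt s := by
    have a1 : |b 0 2| ≤ Real.sqrt s :=
      Real.abs_le_sqrt (by simp only [s]; linarith [sq_nonneg (b 0 3)])
    have a2 : |b 0 3| ≤ Real.sqrt s :=
      Real.abs_le_sqrt (by simp only [s]; linarith [sq_nonneg (b 0 2)])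
    rw [abs_le] at a1 a2
    refine norm_C2_le (Real.sqrt_nonneg _) fun i j => ?_
    rw [abs_le]
    constructor <;> fin_cases i <;> fin_cases j <;>
      simp [hz, hb 0 1, hb 0 2, hb 0 3, hb 1 2, hb 1 3, hb 2 3, e0, e3] <;>
      linarith [Real.sqrt_nonneg s]
  have h1 : ‖b‖ ^ 2 ≤ s := by
    refine (pow_le_pow_left₀ (norm_nonneg _) hbn 2).trans_eq (Real.sq_sqrt ?_)
    positivity
  have h2 : (‖w‖ / 2) ^ 2 ≤ ‖b‖ ^ 2 := pow_le_pow_left₀ (by positivity) hn 2
  have h3 := hA.det_frame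
  nlinarith [sq_nonneg ‖w‖]

/-- invariant forms are determined, with bounds, by their values on complex lines -/
lemma Near.norm_le_of_quad (hA : Near A) (hw : Anti w) (hi : Inv A w) {m : ℝ}
    (hq : ∀ v, |ev2 w v (A *ᵥ v)| ≤ m * ‖v‖ ^ 2) : ‖w‖ ≤ 24 * m := by
  have hb := anti_pullC hw (frame A)
  obtain ⟨h1, h2⟩ := (inv_J0_iff hb).1 (inv_conj hA.mul_frame hi)
  have hm : 0 ≤ m := by
    have h := (abs_nonneg _).trans (hq ![1, 0, 0, 0])
    have h1 : ‖(![1, 0, 0, 0] : C1)‖ ≠ 0 := fun h0 => by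
      simpa using congrFun (norm_eq_zero.1 h0) 0
    exact nonneg_of_mul_nonneg_left h (by positivity)
  set b := pullC (frame A) w
  have q : ∀ x y : ℝ, ∀ z t : ℝ, |x| ≤ 1 → |y| ≤ 1 → |z| ≤ 1 → |t| ≤ 1 →
      |b 0 1 * (x ^ 2 + y ^ 2) + b 2 3 * (z ^ 2 + t ^ 2)
        + 2 * (b 0 2 * (z * y - x * t) + b 0 3 * (z * x + y * t))| ≤ 4 * m := by
    intro x y z t hx hy hz ht
    set v : C1 := ![x, y, z, t]
    have hv : ‖v‖ ≤ 1 := (pi_norm_le_iff_of_nonneg zero_le_one).2 fun i => by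
      fin_cases i <;> simpa [v]
    have h := hq (frame A *ᵥ v)
    rw [mulVec_mulVec, hA.mul_frame, ← mulVec_mulVec, ← ev2_pullC, ev2_J0 hb h1 h2] at h
    have hn : ‖frame A *ᵥ v‖ ≤ 2 := (hA.norm_frame_mulVec v).2.trans (by linarith)
    have h' := h.trans (mul_le_mul_of_nonneg_left
      (pow_le_pow_left₀ (norm_nonneg _) hn 2) hm)
    simp only [v, Matrix.cons_val_zero, Matrix.cons_val_one, Matrix.cons_val_two,
      Matrix.cons_val_three, Matrix.head_cons, Matrix.tail_cons] at h'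
    linarith
  have qa := q 1 0 0 0 (by simp) (by simp) (by simp) (by simp)
  have qd := q 0 0 1 0 (by simp) (by simp) (by simp) (by simp)
  have qp := q 1 0 0 1 (by simp) (by simp) (by simp) (by simp)
  have qq := q 1 0 1 0 (by simp) (by simp) (by simp) (by simp)
  rw [abs_le] at qa qd qp qq
  have hz : ∀ i, b i i = 0 := fun i => by linarith [hb i i]
  have hbn : ‖b‖ ≤ 12 * m := by
    refine norm_C2_le (by linarith) fun i j => ?_
    rw [abs_le]
    constructor <;> fin_cases i <;> fin_cases j <;>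
      simp [hz, hb 0 1, hb 0 2, hb 0 3, hb 1 2, hb 1 3, hb 2 3] <;> linarith
  linarith [(hA.norm_frame_bounds w).1]

/-- the pairing with a strictly positive form controls semipositive forms -/
lemma Near.norm_le_wdg (hA : Near A) (hw : Anti w) (hi : Inv A w) (hp : Pos A w) (hF : Anti F)
    {m : ℝ} (hm : 0 ≤ m) (hmF : ∀ v, m * ‖v‖ ^ 2 ≤ ev2 F v (A *ᵥ v)) :
    m * ‖w‖ ≤ 64 * wdg w F := by
  have e : wdg w F = wdg w (p11C A F) := by
    conv_lhs => rw [← p11C_add_pmC A F]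
    rw [wdg_add_right, hA.wdg_inv_ainv hw (anti_pmC hF A) hi (ainv_pmC hA.1 F), add_zero]
  have hh := (hA.semipos_iff hw).2 ⟨hi, hp⟩
  set h := pullC (frame A) w
  set G := pullC (frame A) (p11C A F) - (m / 16) • F0
  have hG : Semipos G := by
    have hAn : Anti (pullC (frame A) (p11C A F)) := anti_pullC (anti_p11C hF A) _
    refine semipos_iff_J0.2 ⟨fun a b => ?_, ?_, fun v => ?_⟩
    · simp only [G, Pi.sub_apply, Pi.smul_apply, smul_eq_mul]
      rw [hAn a b, anti_F0 a b]; ring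
    · rw [Inv, pullC_sub, pullC_smul,
        show pullC J0 (pullC (frame A) (p11C A F)) = _ from
          inv_conj hA.mul_frame (inv_p11C hA.1 F),
        show pullC J0 F0 = F0 from (inv_J0_iff anti_F0).2 (by simp [F0])]
    · have e1 : ev2 (pullC (frame A) (p11C A F)) v (J0 *ᵥ v) =
          ev2 F (frame A *ᵥ v) (A *ᵥ (frame A *ᵥ v)) := by
        rw [ev2_pullC, mulVec_mulVec v (frame A) J0, ← hA.mul_frame, ← mulVec_mulVec,
          ev2_p11C hA.1 hF]
      simp only [G]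
      rw [sub_eq_add_neg, ev2_add, ev2_neg, ev2_smul, e1,
        ev2_J0 anti_F0 (by simp [F0]) (by simp [F0])]
      have h2 := hmF (frame A *ᵥ v)
      have h3 : (‖v‖ / 2) ^ 2 ≤ ‖frame A *ᵥ v‖ ^ 2 :=
        pow_le_pow_left₀ (by positivity) (hA.norm_frame_mulVec v).1 2
      have h4 : ∀ i, v i ^ 2 ≤ ‖v‖ ^ 2 := fun i => by
        rw [← sq_abs (v i)]; exact pow_le_pow_left₀ (abs_nonneg _) (abs_le_norm_C1 v i) 2
      have := h4 0; have := h4 1; have := h4 2; have := h4 3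
      have h5 : m * (v 0 ^ 2 + v 1 ^ 2 + (v 2 ^ 2 + v 3 ^ 2)) ≤ m * (4 * ‖v‖ ^ 2) :=
        mul_le_mul_of_nonneg_left (by linarith) hm
      have h6 := mul_le_mul_of_nonneg_left h3 hm
      rw [mulVec_mulVec] at h2 ⊢
      simp [F0]
      linarith
  have e2 : wdg h (pullC (frame A) (p11C A F)) = wdg h G + m / 16 * tr11 h := by
    simp only [G]
    rw [sub_eq_add_neg, wdg_add_right, wdg_neg_right, wdg_smul_right]
    have : wdg h F0 = tr11 h := by simp [wdg, F0, tr11]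
    rw [this]; ring
  have h5 := wdg_semipos_nonneg hh hG
  rw [hA.wdg_frame hw (anti_p11C hF A), ← e] at e2
  have h6 := semipos_norm_le hh
  have h7 := (hA.norm_frame_bounds w).1
  have h8 : m / 16 * (‖w‖ / 2) ≤ m / 16 * tr11 h :=
    mul_le_mul_of_nonneg_left (h7.trans h6) (by positivity)
  have h9 := hA.det_frame
  nlinarith [mul_nonneg hm (norm_nonneg w)]

end Vale.Agent.P204.Full.Alg
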