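import Vale.Agent.P204.Full.Alg.Frame

/-!
P204 F4: positivity and invariance under a small change of the complex structure, lower bounds of
wedge products.
-/

namespace Vale.Agent.P204.Full.Alg

open Matrix Vale.Agent.P204.Heart

variable {A A' : Matrix (Fin 4) (Fin 4) ℝ} {w x y : C2} {d : ℝ}

lemma Near.sub_le_min (hA : Near A) (hA' : Near A') (hd : ∀ p q, |A' p q - A p q| ≤ d) :
    0 ≤ min d 1 ∧ min d 1 ≤ 1 ∧ ∀ p q, |A' p q - A p q| ≤ min d 1 := by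
  refine ⟨le_min ((abs_nonneg _).trans (hd 0 0)) zero_le_one, min_le_right _ _,
    fun p q => le_min (hd p q) ?_⟩
  have h1 := hA.2 p q
  have h2 := hA'.2 p q
  rw [abs_le] at h1 h2 ⊢
  constructor <;> linarith

lemma Near.norm_pullC_sub (hA : Near A) (hA' : Near A') (hd : ∀ p q, |A' p q - A p q| ≤ d)
    (w : C2) : ‖pullC A' w - pullC A w‖ ≤ 80 * d * ‖w‖ := by
  obtain ⟨h0, h1, h⟩ := hA.sub_le_min hA' hd
  refine (norm_pullC_sub_le h0 hA.norm_le_two h w).trans (mul_le_mul_of_nonneg_right ?_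
    (norm_nonneg w))
  have : min d 1 ^ 2 ≤ min d 1 := by nlinarith
  linarith [min_le_left d 1]

/-- the anti-invariant part of a form invariant for a nearby structure -/
lemma Near.pm_le (hA : Near A) (hA' : Near A') (hd : ∀ p q, |A' p q - A p q| ≤ d)
    (hi : Inv A' w) : ‖pmC A w‖ ≤ 40 * d * ‖w‖ := by
  have h := hA.norm_pullC_sub hA' hd w
  rw [show pullC A' w = w from hi] at h
  rw [pmC_eq, norm_smul, Real.norm_eq_abs, abs_of_nonneg (by norm_num : (0 : ℝ) ≤ 1 / 2)]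
  linarith

/-- the invariant part of a form anti-invariant for a nearby structure -/
lemma Near.p11_le (hA : Near A) (hA' : Near A') (hd : ∀ p q, |A' p q - A p q| ≤ d)
    (hi : AInv A' w) : ‖p11C A w‖ ≤ 40 * d * ‖w‖ := by
  have h := hA.norm_pullC_sub hA' hd w
  rw [show pullC A' w = -w from hi, norm_sub_rev, sub_neg_eq_add, add_comm] at h
  rw [p11C_eq, norm_smul, Real.norm_eq_abs, abs_of_nonneg (by norm_num : (0 : ℝ) ≤ 1 / 2)]
  linarith

/-- semidefinite Cauchy-Schwarz inequality -/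
lemma Near.cs (hA : Near A) (hw : Anti w) (hi : Inv A w) (hp : Pos A w) (u v : C1) :
    ev2 w u (A *ᵥ v) ^ 2 ≤ ev2 w u (A *ᵥ u) * ev2 w v (A *ᵥ v) := by
  have hq : ∀ t : ℝ, 0 ≤ ev2 w u (A *ᵥ u) * (t * t) + 2 * ev2 w u (A *ᵥ v) * t
      + ev2 w v (A *ᵥ v) := fun t => by
    have h := hp (t • u + v)
    rw [mulVec_add, mulVec_smul, ev2_add_left, ev2_add_right, ev2_add_right, ev2_smul_left,
      ev2_smul_left, ev2_smul_right, ev2_smul_right, ← ev2_symm_of_inv hA.1 hw hi u v] at h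
    linarith
  have h := discrim_le_zero hq
  rw [discrim] at h
  linarith

/-- positivity survives a change of the structure up to second order -/
lemma Near.pos_inv (hA : Near A) (hA' : Near A') (hd : ∀ p q, |A' p q - A p q| ≤ d)
    (hw : Anti w) (hi : Inv A' w) (hp : Pos A' w) (v : C1) :
    -(40000 * d ^ 2 * ‖w‖ * ‖v‖ ^ 2) ≤ ev2 (p11C A w) v (A *ᵥ v) := by
  rw [ev2_p11C hA.1 hw]
  have hd0 : 0 ≤ d := (abs_nonneg _).trans (hd 0 0)
  set k : C1 := (A - A') *ᵥ v with hk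
  set u : C1 := -(A' *ᵥ k) with hu
  have e1 : ev2 w v (A *ᵥ v) = ev2 w v (A' *ᵥ v) + ev2 w v (A' *ᵥ u) := by
    rw [← ev2_add_right, ← mulVec_add, hu, mulVec_add, mulVec_neg, mulVec_mulVec, hA'.1, hk,
      neg_mulVec, one_mulVec, neg_neg, sub_mulVec, add_sub_cancel]
  rw [e1]
  have hk' : ‖k‖ ≤ 4 * d * ‖v‖ :=
    norm_mulVec_le (fun p q => by rw [Matrix.sub_apply, abs_sub_comm]; exact hd p q) v
  have hu' : ‖u‖ ≤ 32 * d * ‖v‖ := by
    rw [hu, norm_neg]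
    exact (norm_mulVec_le hA'.norm_le_two k).trans (by linarith)
  have hAu : ‖A' *ᵥ u‖ ≤ 8 * ‖u‖ := (norm_mulVec_le hA'.norm_le_two u).trans (by linarith)
  have hqu : ev2 w u (A' *ᵥ u) ≤ 160000 * d ^ 2 * ‖w‖ * ‖v‖ ^ 2 := by
    refine (le_abs_self _).trans ((abs_ev2_le w u _).trans ?_)
    calc 16 * ‖w‖ * ‖u‖ * ‖A' *ᵥ u‖ ≤ 16 * ‖w‖ * ‖u‖ * (8 * ‖u‖) :=
          mul_le_mul_of_nonneg_left hAu (by positivity)
      _ = 128 * ‖w‖ * ‖u‖ ^ 2 := by ring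
      _ ≤ 128 * ‖w‖ * (32 * d * ‖v‖) ^ 2 :=
          mul_le_mul_of_nonneg_left (pow_le_pow_left₀ (norm_nonneg _) hu' 2) (by positivity)
      _ ≤ 160000 * d ^ 2 * ‖w‖ * ‖v‖ ^ 2 := by
          have : 0 ≤ d ^ 2 * ‖w‖ * ‖v‖ ^ 2 := by positivity
          linarith
  have hc := hA'.cs hw hi hp v u
  have h1 := hp v
  have h2 := hp u
  nlinarith [sq_nonneg (ev2 w v (A' *ᵥ v) - ev2 w u (A' *ᵥ u) / 4)]

/-- anti-invariant forms of a nearby structure are small on complex lines -/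
lemma Near.pos_anti (hA : Near A) (hA' : Near A') (hd : ∀ p q, |A' p q - A p q| ≤ d)
    (hw : Anti w) (hi : AInv A' w) (v : C1) :
    |ev2 (p11C A w) v (A *ᵥ v)| ≤ 64 * d * ‖w‖ * ‖v‖ ^ 2 := by
  rw [ev2_p11C hA.1 hw]
  have e1 : ev2 w v (A *ᵥ v) = ev2 w v ((A - A') *ᵥ v) := by
    rw [sub_mulVec, sub_eq_add_neg, ev2_add_right, ev2_neg_right, ev2_of_ainv hA'.1 hw hi,
      neg_zero, add_zero]
  rw [e1]
  refine (abs_ev2_le w v _).trans ?_
  have hk : ‖(A - A') *ᵥ v‖ ≤ 4 * d * ‖v‖ :=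
    norm_mulVec_le (fun p q => by rw [Matrix.sub_apply, abs_sub_comm]; exact hd p q) v
  calc 16 * ‖w‖ * ‖v‖ * ‖(A - A') *ᵥ v‖ ≤ 16 * ‖w‖ * ‖v‖ * (4 * d * ‖v‖) :=
        mul_le_mul_of_nonneg_left hk (by positivity)
    _ = 64 * d * ‖w‖ * ‖v‖ ^ 2 := by ring

/-! ## Lower bounds of wedge products -/

lemma Near.unit_quad (hA : Near A) (v : C1) : ‖v‖ ^ 2 / 2 ≤ ev2 F0 v (A *ᵥ v) := by
  have e : ev2 F0 v (A *ᵥ v) = ev2 F0 v (J0 *ᵥ v) + ev2 F0 v ((A - J0) *ᵥ v) := by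
    rw [← ev2_add_right, sub_mulVec, add_sub_cancel]
  have h1 : ‖v‖ ^ 2 ≤ ev2 F0 v (J0 *ᵥ v) := by
    rw [ev2_J0 anti_F0 (by simp [F0]) (by simp [F0])]
    have := norm_sq_le_sq v
    rw [sq_eq] at this
    simp [F0]
    linarith
  have hk : ‖(A - J0) *ᵥ v‖ ≤ 4 * (1 / 1000) * ‖v‖ :=
    norm_mulVec_le (fun p q => by rw [Matrix.sub_apply]; exact hA.2 p q) v
  have h2 := abs_le.1 ((abs_ev2_le F0 v ((A - J0) *ᵥ v)).trans
    (mul_le_mul (mul_le_mul_of_nonneg_right (mul_le_mul_of_nonneg_left norm_F0 (by norm_num))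
      (norm_nonneg v)) hk (norm_nonneg _) (by positivity)))
  rw [e]
  nlinarith [h2.1, norm_nonneg v]

lemma Near.norm_unit (hA : Near A) : ‖p11C A F0‖ ≤ 2 := by
  have h := norm_pullC_sub_le (A := A) (B := J0) (r := 1) (by norm_num : (0 : ℝ) ≤ 1 / 1000)
    (fun p q => by fin_cases p <;> fin_cases q <;> simp [J0]) hA.2 F0
  rw [show pullC J0 F0 = F0 from (inv_J0_iff anti_F0).2 (by simp [F0])] at h
  have h2 := norm_le_norm_add_norm_sub' (pullC A F0) F0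
  have h3 := norm_F0
  rw [p11C_eq, norm_smul, Real.norm_eq_abs, abs_of_nonneg (by norm_num : (0 : ℝ) ≤ 1 / 2)]
  have h4 := norm_add_le F0 (pullC A F0)
  nlinarith [norm_nonneg F0]

/-- shifting by the unit form gives a semipositive form -/
lemma Near.semipos_shift (hA : Near A) (hx : Anti x) (hi : Inv A x) {ex : ℝ} (hex : 0 ≤ ex)
    (hq : ∀ v, -(ex * ‖v‖ ^ 2) ≤ ev2 x v (A *ᵥ v)) :
    Semipos (pullC (frame A) (x + (2 * ex) • p11C A F0)) := by
  have hE := anti_p11C anti_F0 A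
  refine (hA.semipos_iff fun a b => ?_).2 ⟨?_, fun v => ?_⟩
  · simp only [Pi.add_apply, Pi.smul_apply, smul_eq_mul]
    rw [hx a b, hE a b]; ring
  · rw [Inv, pullC_add, pullC_smul, show pullC A x = x from hi,
      show pullC A (p11C A F0) = _ from inv_p11C hA.1 F0]
  · rw [ev2_add, ev2_smul, ev2_p11C hA.1 anti_F0]
    nlinarith [hq v, mul_le_mul_of_nonneg_left (hA.unit_quad v) hex]

/-- mixed lower bound -/
lemma Near.wdg_lower (hA : Near A) (hx : Anti x) (hy : Anti y) (hxi : Inv A x) (hyi : Inv A y)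
    {ex ey : ℝ} (hex : 0 ≤ ex) (hey : 0 ≤ ey)
    (hqx : ∀ v, -(ex * ‖v‖ ^ 2) ≤ ev2 x v (A *ᵥ v))
    (hqy : ∀ v, -(ey * ‖v‖ ^ 2) ≤ ev2 y v (A *ᵥ v)) :
    -(96 * (ex * ‖y‖ + ey * ‖x‖ + ex * ey)) ≤ wdg x y := by
  set E := p11C A F0
  have hE : Anti E := anti_p11C anti_F0 A
  have h := wdg_semipos_nonneg (hA.semipos_shift hx hxi hex hqx) (hA.semipos_shift hy hyi hey hqy)
  rw [hA.wdg_frame (fun a b => by
      simp only [Pi.add_apply, Pi.smul_apply, smul_eq_mul]; rw [hx a b, show p11C A F0 b a = -p11C A F0 a b from hE a b]; ring)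
    (fun a b => by
      simp only [Pi.add_apply, Pi.smul_apply, smul_eq_mul]
      rw [hy a b, show p11C A F0 b a = -p11C A F0 a b from hE a b]; ring)]
    at h
  have h' : 0 ≤ wdg (x + (2 * ex) • E) (y + (2 * ey) • E) :=
    nonneg_of_mul_nonneg_right h (lt_of_lt_of_le (by norm_num) hA.det_frame.1)
  rw [wdg_add_left, wdg_add_right, wdg_add_right, wdg_smul_left, wdg_smul_left, wdg_smul_right,
    wdg_smul_right] at h'
  have hn : ‖E‖ ≤ 2 := hA.norm_unit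
  have b1 : wdg E y ≤ 12 * ‖y‖ := (le_abs_self _).trans ((wdg_abs_le E y).trans
    (by nlinarith [norm_nonneg y]))
  have b2 : wdg x E ≤ 12 * ‖x‖ := (le_abs_self _).trans ((wdg_abs_le x E).trans
    (by nlinarith [norm_nonneg x]))
  have b3 : wdg E E ≤ 24 := (le_abs_self _).trans ((wdg_abs_le E E).trans
    (by nlinarith [norm_nonneg E]))
  have c1 := mul_le_mul_of_nonneg_left b1 hex
  have c2 := mul_le_mul_of_nonneg_left b2 hey
  have c3 := mul_le_mul_of_nonneg_left b3 (mul_nonneg hex hey)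
  have : 0 ≤ ex * ‖y‖ := mul_nonneg hex (norm_nonneg y)
  have : 0 ≤ ey * ‖x‖ := mul_nonneg hey (norm_nonneg x)
  linarith

/-- lower bound of `w ∧ w` -/
lemma Near.wdg_self_lower (hA : Near A) (hw : Anti w) {e : ℝ} (he : 0 ≤ e)
    (hq : ∀ v, -(e * ‖v‖ ^ 2) ≤ ev2 w v (A *ᵥ v)) :
    ‖pmC A w‖ ^ 2 / 4 - 192 * (e * ‖p11C A w‖ + e ^ 2) ≤ wdg w w := by
  have hp := anti_p11C hw A
  have hm := anti_pmC hw A
  have hip := inv_p11C hA.1 w
  have him := ainv_pmC hA.1 w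
  have e0 : wdg w w = wdg (p11C A w) (p11C A w) + wdg (pmC A w) (pmC A w) := by
    conv_lhs => rw [← p11C_add_pmC A w]
    rw [wdg_add_left, wdg_add_right, wdg_add_right, wdg_comm (pmC A w) (p11C A w),
      hA.wdg_inv_ainv hp hm hip him]
    ring
  have h1 := hA.wdg_lower hp hp hip hip he he (fun v => by rw [ev2_p11C hA.1 hw]; exact hq v)
    (fun v => by rw [ev2_p11C hA.1 hw]; exact hq v)
  have h2 := hA.wdg_pm_ge hm him
  rw [e0]
  nlinarith [sq_nonneg e]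

end Vale.Agent.P204.Full.Alg
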